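import Vale.Agent.P366.H707.N.Stokes
import Vale.Agent.P366.H208.L.Int
import Vale.Agent.P366.H381.NH0

/-! The divergence theorem on the exterior domain of a Kerr-Schild slice. -/

open MeasureTheory Metric Filter Topology Set
open scoped ContDiff ENNReal

noncomputable section
namespace Vale.Agent.P366.KSL

open Vale.Agent.P366 (pd E flux)
open Vale.Agent.P366.H353.N
open Vale.Agent.P366.Kerr (NullCone Psi pt sp indG indK sgn ksL ein IsKS FutTimelike DECatL IsGraph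
  IsSliceL HasDEC)
open Vale.Agent.P366.KSN (Y dts sg Ms exists_unit U_smul Y_eq norm_smul_unit posU' bflux OO mem_OO
  stokes_le)

variable {n : ℕ} {C : NullCone n} {D : Stmt.Exterior n} {x y : E n} {s : ℝ}

lemma dom_iff (dom : ∀ y, 0 ≤ D.F y ↔ ∃ x, x ≠ 0 ∧ C.U x ≤ ‖x‖ ∧ Psi C.H x = y) :
    0 ≤ D.F y ↔ ∃ x s, ‖x‖ = 1 ∧ C.U x ≤ s ∧ Y C.H x s = y := by
  rw [dom y]
  constructor
  · rintro ⟨z, hz, hU, hy⟩
    obtain ⟨x, hx, hzx⟩ := exists_unit hz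
    have hn : 0 < ‖z‖ := norm_pos_iff.2 hz
    have hUx : C.U z = C.U x := by
      conv_lhs => rw [hzx]
      exact U_smul C (ne_zero_of_one hx) hn
    refine ⟨x, ‖z‖, hx, hUx ▸ hU, ?_⟩
    rw [← Y_eq C hx hn, ← hzx, hy]
  · rintro ⟨x, s, hx, hU, hy⟩
    have hs : 0 < s := (posU' C hx).trans_le hU
    have hx0 := ne_zero_of_one hx
    refine ⟨s • x, smul_ne_zero hs.ne' hx0, ?_, ?_⟩
    · rw [U_smul C hx0 hs, norm_smul_unit hx hs.le]
      exact hU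
    · rw [Y_eq C hx hs, hy]

lemma toDat_M (C : NullCone n) (hx : ‖x‖ = 1) : C.toDat.M x = Ms C.H (C.U x) x := by
  ext i j
  change ‖x‖ * hs C.H i j x + C.U x * (kd i j - x i * x j / ‖x‖ ^ 2) + x i * x j / ‖x‖ ^ 2 =
    hs C.H i j x + C.U x * (kd i j - x i * x j) + x i * x j
  rw [hx]
  ring

lemma toDat_dt (C : NullCone n) (hx : ‖x‖ = 1) : C.toDat.dt x = dts C.H (C.U x) x := by
  change (C.toDat.M x).det = (Ms C.H (C.U x) x).det
  rw [toDat_M C hx]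

lemma bflux_zero (C : NullCone n) (F : Fin n → E n → ℝ) (hx : ‖x‖ = 1) :
    bflux C F 0 x = dts C.H (C.U x) x *
      ∑ i, F i (Y C.H x (C.U x)) * (x i - C.toDat.b x i) := by
  have hx0 := ne_zero_of_one hx
  unfold bflux
  rw [add_zero, Finset.mul_sum]
  refine Finset.sum_congr rfl fun i _ => ?_
  have e : dts C.H (C.U x) x * C.toDat.b x i =
      ∑ j, (Ms C.H (C.U x) x).adjugate i j * pd j C.U x := by
    have h1 : C.toDat.b x i = ∑ j, (C.toDat.M x)⁻¹ i j * (‖x‖ * pd j C.U x) := rfl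
    rw [h1, Finset.mul_sum]
    refine Finset.sum_congr rfl fun j _ => ?_
    rw [← toDat_M C hx, C.toDat.adj_eq hx0, toDat_dt C hx, hx]
    ring
  rw [← e]
  ring

/-- [V4]: the flux through the boundary and at infinity of a field of nonnegative divergence. -/
theorem stokes [Fact (3 ≤ n)] (dom : ∀ y, 0 ≤ D.F y ↔ ∃ x, x ≠ 0 ∧ C.U x ≤ ‖x‖ ∧ Psi C.H x = y)
    (_bdF : ∀ x, x ≠ 0 → ‖x‖ = C.U x → D.F (Psi C.H x) = 0) {F : Fin n → E n → ℝ}
    (hF : ∀ i y, 0 ≤ D.F y → ContDiffAt ℝ ∞ (F i) y)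
    (hd : ∀ y, 0 ≤ D.F y → 0 ≤ ∑ i, pd i (F i) y) {e : ℝ} (he : Tendsto (flux F) atTop (𝓝 e)) :
    SI (fun x => dts C.H (C.U x) x *
      ∑ i, F i (Y C.H x (C.U x)) * (x i - C.toDat.b x i)) ≤ e := by
  obtain ⟨R, hR⟩ := D.dom.2.2.2
  have hmem : ∀ x s, ‖x‖ = 1 → C.U x ≤ s → 0 ≤ D.F (Y C.H x s) := fun x s hx hs =>
    (dom_iff dom).mpr ⟨x, s, hx, hs, rfl⟩
  have h := stokes_le C (R0 := R) (fun y hy => (dom_iff dom).mp (hR y hy).le)
    (fun i x s hx hs => (hF i _ (hmem x s hx hs)).of_le (by exact_mod_cast le_top))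
    (fun x s hx hs => hd _ (hmem x s hx hs.le)) he
  rwa [SI_congr fun x hx => bflux_zero C F hx] at h

end Vale.Agent.P366.KSL
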