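import Vale.Agent.P366.H707.N.StokesEq
import Vale.Agent.P366.H707.L.Stokes

/-! The divergence theorem on the exterior domain of a Kerr-Schild slice: the case of equality. -/

open MeasureTheory Metric Filter Topology Set
open scoped ContDiff ENNReal

noncomputable section
namespace Vale.Agent.P366.KSL

open Vale.Agent.P366 (pd E flux)
open Vale.Agent.P366.H353.N
open Vale.Agent.P366.Kerr (NullCone Psi pt sp indG indK sgn ksL ein IsKS FutTimelike DECatL IsGraph
  IsSliceL HasDEC)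
open Vale.Agent.P366.KSN (Y dts sg Ms exists_unit U_smul Y_eq norm_smul_unit posU' bflux OO mem_OO
  stokes_le stokes_eq ray_closed Y_cont)

variable {n : ℕ} {C : NullCone n} {D : Stmt.Exterior n} {x y : E n} {s : ℝ}

/-- Equality in the divergence theorem: the divergence vanishes on the exterior domain. -/
theorem stokes_zero [Fact (3 ≤ n)]
    (dom : ∀ y, 0 ≤ D.F y ↔ ∃ x, x ≠ 0 ∧ C.U x ≤ ‖x‖ ∧ Psi C.H x = y) {F : Fin n → E n → ℝ}
    (hF : ∀ i y, 0 ≤ D.F y → ContDiffAt ℝ ∞ (F i) y)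
    (hd : ∀ y, 0 ≤ D.F y → 0 ≤ ∑ i, pd i (F i) y) {e : ℝ} (he : Tendsto (flux F) atTop (𝓝 e))
    (heq : e ≤ SI (fun x => dts C.H (C.U x) x *
      ∑ i, F i (Y C.H x (C.U x)) * (x i - C.toDat.b x i))) :
    ∀ y, 0 ≤ D.F y → ∑ i, pd i (F i) y = 0 := by
  obtain ⟨R, hR⟩ := D.dom.2.2.2
  have hmem : ∀ x s, ‖x‖ = 1 → C.U x ≤ s → 0 ≤ D.F (Y C.H x s) := fun x s hx hs =>
    (dom_iff dom).mpr ⟨x, s, hx, hs, rfl⟩
  have h := stokes_eq C (R0 := R) (fun y hy => (dom_iff dom).mp (hR y hy).le)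
    (fun i x s hx hs => (hF i _ (hmem x s hx hs)).of_le (by exact_mod_cast le_top))
    (fun x s hx hs => hd _ (hmem x s hx hs.le)) he
    (by rwa [SI_congr fun x hx => bflux_zero C F hx])
  intro y hy
  obtain ⟨x, s, hx, hs, rfl⟩ := (dom_iff dom).mp hy
  rcases hs.lt_or_eq with hs | hs
  · exact h x s hx hs
  · have hc : ContinuousAt (fun t => ∑ i, pd i (F i) (Y C.H x t)) s := by
      refine tendsto_finsetSum _ fun i _ => ?_
      have h1 : ContDiffAt ℝ 0 (fderiv ℝ (F i)) (Y C.H x s) := (hF i _ hy).fderiv_right (by simp)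
      have h2 : ContinuousAt (pd i (F i)) (Y C.H x s) :=
        (h1.clm_apply (contDiffAt_const (c := EuclideanSpace.single i (1:ℝ)))).continuousAt
      exact ContinuousAt.comp (f := Y C.H x) h2 (Y_cont C.H x).continuousAt
    exact ray_closed (g := fun t => ∑ i, pd i (F i) (Y C.H x t)) hc fun t ht => h x t hx (hs ▸ ht)

end Vale.Agent.P366.KSL
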