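import Vale.Agent.P366.H896.W.Gr

/-! Rigidity: the flux fields of a Kerr-Schild metric over a round null cone. -/

open MeasureTheory Metric Filter Topology Set
open scoped ContDiff ENNReal

noncomputable section
namespace Vale.Agent.P366.KSL.Rig

open Vale.Agent.P366 (pd E)
open Vale.Agent.P366.H353.N (kd)
open Vale.Agent.P366.KSN.X5 (DP)

variable {n : ℕ} {c y : E n} {f v v0 : E n → ℝ} {vs : Fin n → E n → ℝ}

/-- the unit vector from `c` to `y` -/
def nn (c : E n) (i : Fin n) (y : E n) : ℝ := (y i - c i) / ‖y - c‖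

lemma nn_eq (c : E n) (i : Fin n) : nn c i = fun y => Vale.Agent.P366.Nc i (y - c) := rfl

lemma pd_shift {g : E n → ℝ} (hg : DifferentiableAt ℝ g (y - c)) (j : Fin n) :
    DP j (fun y => g (y - c)) (pd j g (y - c)) y := by
  have h1 : HasFDerivAt (fun y : E n => y - c) (ContinuousLinearMap.id ℝ (E n)) y :=
    (hasFDerivAt_id y).sub_const c
  have h2 := hg.hasFDerivAt.comp y h1
  refine ⟨h2.differentiableAt, ?_⟩
  unfold Vale.Agent.P366.pd
  rw [show (fun y => g (y - c)) = g ∘ fun y => y - c from rfl, h2.fderiv]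
  rfl

lemma cd_nn (hy : y ≠ c) (i : Fin n) : ContDiffAt ℝ ∞ (nn c i) y := by
  rw [nn_eq]
  have h : ContDiffAt ℝ ∞ (Vale.Agent.P366.Nc i) (y - c) :=
    Vale.Agent.P366.contDiffAt_Nc (m := ∞) i (sub_ne_zero.mpr hy)
  exact h.comp y (contDiffAt_id.sub contDiffAt_const)

lemma cd_rho (hy : y ≠ c) : ContDiffAt ℝ ∞ (fun y : E n => ‖y - c‖) y :=
  (contDiffAt_norm ℝ (sub_ne_zero.mpr hy)).comp y (contDiffAt_id.sub contDiffAt_const)

lemma rho_ne (hy : y ≠ c) : ‖y - c‖ ≠ 0 := norm_ne_zero_iff.mpr (sub_ne_zero.mpr hy)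

lemma kd_symm (i j : Fin n) : kd i j = kd j i := by unfold kd; simp only [eq_comm]

lemma dp_nn (hy : y ≠ c) (i j : Fin n) :
    DP j (nn c i) ((kd i j - nn c i y * nn c j y) / ‖y - c‖) y := by
  have hy' : y - c ≠ 0 := sub_ne_zero.mpr hy
  have h1 : DifferentiableAt ℝ (Vale.Agent.P366.Nc i) (y - c) :=
    (Vale.Agent.P366.contDiffAt_Nc (m := 1) i hy').differentiableAt (by norm_num)
  have h2 := pd_shift (y := y) h1 j
  rw [Vale.Agent.P366.pd_Nc hy' j i] at h2
  have e : ((if j = i then (1:ℝ) else 0) - Vale.Agent.P366.Nc j (y - c) *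
      Vale.Agent.P366.Nc i (y - c)) / ‖y - c‖ =
      (kd i j - nn c i y * nn c j y) / ‖y - c‖ := by
    rw [kd_symm i j]
    unfold kd nn Vale.Agent.P366.Nc
    simp only [PiLp.sub_apply]
    ring
  rw [e] at h2
  exact h2

lemma dp_rho (hy : y ≠ c) (j : Fin n) : DP j (fun y : E n => ‖y - c‖) (nn c j y) y := by
  have hy' : y - c ≠ 0 := sub_ne_zero.mpr hy
  have h1 : DifferentiableAt ℝ (fun y : E n => ‖y‖) (y - c) :=
    (contDiffAt_norm ℝ hy' (n := 1)).differentiableAt (by simp)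
  have h2 := pd_shift (y := y) h1 j
  rw [Vale.Agent.P366.pd_norm hy' j] at h2
  exact h2

lemma sum_nn (hy : y ≠ c) : ∑ i, nn c i y * nn c i y = 1 := by
  have h1 : ∑ i, (y - c) i ^ 2 = ‖y - c‖ ^ 2 := (EuclideanSpace.real_norm_sq_eq (y - c)).symm
  have h2 := rho_ne hy
  have e : ∀ i, nn c i y * nn c i y = (y - c) i ^ 2 / ‖y - c‖ ^ 2 := by
    intro i
    unfold nn
    simp only [PiLp.sub_apply]
    field_simp
  simp only [e, ← Finset.sum_div, h1]
  field_simp

/-- the projection -/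
def P (c : E n) (i j : Fin n) (y : E n) : ℝ := kd i j - nn c i y * nn c j y

lemma P_symm (i j : Fin n) : P c i j y = P c j i y := by
  unfold P; rw [kd_symm i j]; ring

lemma kd_sum (i : Fin n) (a : Fin n → ℝ) : ∑ j, kd i j * a j = a i := by simp [kd]

lemma P_nn (hy : y ≠ c) (i : Fin n) : ∑ j, P c i j y * nn c j y = 0 := by
  have e : ∀ j, P c i j y * nn c j y = kd i j * nn c j y - nn c i y * (nn c j y * nn c j y) :=
    fun j => by unfold P; ring
  simp only [e, Finset.sum_sub_distrib, ← Finset.mul_sum, sum_nn hy, kd_sum]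
  ring

lemma P_tr (hy : y ≠ c) : ∑ i, P c i i y = n - 1 := by
  unfold P
  simp only [Finset.sum_sub_distrib, sum_nn hy]
  simp [kd]

lemma P_P (hy : y ≠ c) (i k : Fin n) : ∑ j, P c i j y * P c j k y = P c i k y := by
  have e : ∀ j, P c i j y * P c j k y = P c i j y * kd k j - P c i j y * nn c j y * nn c k y := by
    intro j
    rw [kd_symm k j]
    unfold P; ring
  simp only [e, Finset.sum_sub_distrib, ← Finset.sum_mul, P_nn hy]
  have e2 : ∀ j, P c i j y * kd k j = kd k j * P c i j y := fun j => mul_comm _ _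
  simp only [e2, kd_sum]
  ring

/-- `1 + ∂_r f` -/
def tau (c : E n) (f : E n → ℝ) (y : E n) : ℝ := 1 + ∑ j, nn c j y * pd j f y

/-- the radial derivative -/
def vr (c : E n) (vs : Fin n → E n → ℝ) (y : E n) : ℝ := ∑ j, nn c j y * vs j y

/-- `⟨∇f, ∇V⟩` -/
def fv (f : E n → ℝ) (vs : Fin n → E n → ℝ) (y : E n) : ℝ := ∑ j, pd j f y * vs j y

/-- `2 Z_0` -/
def Z0 (c : E n) (f v : E n → ℝ) (vs : Fin n → E n → ℝ) (i : Fin n) (y : E n) : ℝ :=
  tau c f y * vs i y - nn c i y * (fv f vs y + vr c vs y + (n - 1) * (v y / ‖y - c‖))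

/-- `φ = k(V) + θ V` -/
def ph (c : E n) (v v0 : E n → ℝ) (vs : Fin n → E n → ℝ) (y : E n) : ℝ :=
  -v0 y + vr c vs y + (n - 1) * (v y / ‖y - c‖)

/-- `2 Z_m` -/
def Zs (c : E n) (f v v0 : E n → ℝ) (vs : Fin n → E n → ℝ) (m i : Fin n) (y : E n) : ℝ :=
  nn c m y * ((-v0 y - fv f vs y) * nn c i y + tau c f y * vs i y) +
    v y / ‖y - c‖ * (tau c f y * P c m i y - nn c i y * ∑ j, P c m j y * pd j f y) -
    ph c v v0 vs y * (tau c f y * kd m i - pd m f y * nn c i y)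

lemma dd {g : E n → ℝ} (h : ContDiffAt ℝ ∞ g y) : DifferentiableAt ℝ g y :=
  h.differentiableAt (by simp)

lemma cdpd {g : E n → ℝ} (h : ContDiffAt ℝ ∞ g y) (i : Fin n) : ContDiffAt ℝ ∞ (pd i g) y :=
  KSN.X5.cd_pd h i

section
variable (hy : y ≠ c) (hf : ContDiffAt ℝ ∞ f y) (hv : ContDiffAt ℝ ∞ v y)
  (h0 : ContDiffAt ℝ ∞ v0 y) (hs : ∀ i, ContDiffAt ℝ ∞ (vs i) y)

include hy hf in
lemma cd_tau : ContDiffAt ℝ ∞ (tau c f) y :=
  contDiffAt_const.add (ContDiffAt.sum fun j _ => (cd_nn hy j).mul (cdpd hf j))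

include hy hs in
lemma cd_vr : ContDiffAt ℝ ∞ (vr c vs) y := ContDiffAt.sum fun j _ => (cd_nn hy j).mul (hs j)

include hf hs in
lemma cd_fv : ContDiffAt ℝ ∞ (fv f vs) y := ContDiffAt.sum fun j _ => (cdpd hf j).mul (hs j)

include hy hv in
lemma cd_vrho : ContDiffAt ℝ ∞ (fun y => v y / ‖y - c‖) y := hv.div (cd_rho hy) (rho_ne hy)

include hy hf hv hs in
lemma cd_Z0 (i : Fin n) : ContDiffAt ℝ ∞ (Z0 c f v vs i) y :=
  ((cd_tau hy hf).mul (hs i)).sub ((cd_nn hy i).mul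
    (((cd_fv hf hs).add (cd_vr hy hs)).add (contDiffAt_const.mul (cd_vrho hy hv))))

include hy in
lemma cd_P (i j : Fin n) : ContDiffAt ℝ ∞ (P c i j) y :=
  contDiffAt_const.sub ((cd_nn hy i).mul (cd_nn hy j))

include hy hv h0 hs in
lemma cd_ph : ContDiffAt ℝ ∞ (ph c v v0 vs) y :=
  (h0.neg.add (cd_vr hy hs)).add (contDiffAt_const.mul (cd_vrho hy hv))

include hy hf hv h0 hs in
lemma cd_Zs (m i : Fin n) : ContDiffAt ℝ ∞ (Zs c f v v0 vs m i) y := by
  refine ContDiffAt.sub (ContDiffAt.add ((cd_nn hy m).mul (((h0.neg.sub (cd_fv hf hs)).mul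
    (cd_nn hy i)).add ((cd_tau hy hf).mul (hs i)))) ((cd_vrho hy hv).mul
    (((cd_tau hy hf).mul (cd_P hy m i)).sub ((cd_nn hy i).mul
    (ContDiffAt.sum fun j _ => (cd_P hy m j).mul (cdpd hf j)))))) ?_
  exact (cd_ph hy hv h0 hs).mul (((cd_tau hy hf).mul contDiffAt_const).sub
    ((cdpd hf m).mul (cd_nn hy i)))

end

lemma nZ (hy : y ≠ c) (i : Fin n) : ∑ m, nn c m y * Zs c f v v0 vs m i y = Z0 c f v vs i y := by
  have hnn := sum_nn hy
  have e : ∀ m, nn c m y * Zs c f v v0 vs m i y =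
      (nn c m y * nn c m y) * ((-v0 y - fv f vs y) * nn c i y + tau c f y * vs i y) +
      v y / ‖y - c‖ * (tau c f y * (P c i m y * nn c m y) -
        nn c i y * ∑ j, (P c j m y * nn c m y) * pd j f y) -
      ph c v v0 vs y * (tau c f y * (kd i m * nn c m y) - (nn c m y * pd m f y) * nn c i y) := by
    intro m
    have e1 : ∑ j, (P c j m y * nn c m y) * pd j f y =
        nn c m y * ∑ j, P c m j y * pd j f y := by
      rw [Finset.mul_sum]
      refine Finset.sum_congr rfl fun j _ => ?_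
      rw [P_symm j m]; ring
    rw [e1, P_symm i m, kd_symm i m]
    unfold Zs
    ring
  simp only [e, Finset.sum_sub_distrib, Finset.sum_add_distrib, ← Finset.sum_mul, ← Finset.mul_sum,
    hnn, P_nn hy, kd_sum]
  have e2 : ∑ m, ∑ j, P c j m y * nn c m y * pd j f y = 0 := by
    rw [Finset.sum_comm]
    simp only [← Finset.sum_mul, P_nn hy, zero_mul, Finset.sum_const_zero]
  rw [e2]
  unfold Z0 ph tau
  ring

/-- the divergence of `n_m Z_m - Z_0` -/
lemma step1 {O : Set (E n)} (hO : IsOpen O) (hc : ∀ y ∈ O, y ≠ c)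
    (hf : ∀ y ∈ O, ContDiffAt ℝ ∞ f y) (hv : ∀ y ∈ O, ContDiffAt ℝ ∞ v y)
    (h0 : ∀ y ∈ O, ContDiffAt ℝ ∞ v0 y) (hs : ∀ y ∈ O, ∀ i, ContDiffAt ℝ ∞ (vs i) y)
    (hτ : ∀ y ∈ O, tau c f y ≠ 0) (hn : (n : ℝ) - 1 ≠ 0)
    (d0 : ∀ y ∈ O, ∑ i, pd i (Z0 c f v vs i) y = 0)
    (ds : ∀ m, ∀ y ∈ O, ∑ i, pd i (Zs c f v v0 vs m i) y = 0) :
    ∀ y ∈ O, ph c v v0 vs y = v y / ‖y - c‖ := by
  intro y hyO
  have hy := hc y hyO
  have hr := rho_ne hy
  have h1 : ∀ i, pd i (Z0 c f v vs i) y =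
      ∑ m, (P c m i y / ‖y - c‖ * Zs c f v v0 vs m i y +
        nn c m y * pd i (Zs c f v v0 vs m i) y) := by
    intro i
    have hev : Z0 c f v vs i =ᶠ[𝓝 y] fun y => ∑ m, nn c m y * Zs c f v v0 vs m i y := by
      filter_upwards [hO.mem_nhds hyO] with z hz
      exact (nZ (hc z hz) i).symm
    rw [Vale.Agent.P366.pd_congr hev i]
    have h2 : DP i (fun y => ∑ m, nn c m y * Zs c f v v0 vs m i y)
        (∑ m, ((kd m i - nn c m y * nn c i y) / ‖y - c‖ * Zs c f v v0 vs m i y +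
          nn c m y * pd i (Zs c f v v0 vs m i) y)) y :=
      DP.sum _ fun m => (dp_nn hy m i).mul
        (DP.of (dd (cd_Zs hy (hf y hyO) (hv y hyO) (h0 y hyO) (hs y hyO) m i)))
    rw [h2.2]
    rfl
  have h3 := d0 y hyO
  simp only [h1, Finset.sum_add_distrib] at h3
  have h4 : ∑ i, ∑ m, nn c m y * pd i (Zs c f v v0 vs m i) y = 0 := by
    rw [Finset.sum_comm]
    simp only [← Finset.mul_sum, ds _ y hyO, mul_zero, Finset.sum_const_zero]
  rw [h4, add_zero] at h3
  have h5 : ∑ i, ∑ m, P c m i y / ‖y - c‖ * Zs c f v v0 vs m i y =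
      tau c f y * (n - 1) / ‖y - c‖ * (v y / ‖y - c‖ - ph c v v0 vs y) := by
    have e : ∀ i m, P c m i y / ‖y - c‖ * Zs c f v v0 vs m i y =
        (1 / ‖y - c‖) * ((-v0 y - fv f vs y) * nn c i y + tau c f y * vs i y) *
          (P c i m y * nn c m y) +
        (1 / ‖y - c‖) * (v y / ‖y - c‖) * tau c f y * (P c i m y * P c m i y) -
        (1 / ‖y - c‖) * (v y / ‖y - c‖) * (P c m i y * nn c i y) *
          (∑ j, P c m j y * pd j f y) -
        (1 / ‖y - c‖) * ph c v v0 vs y * tau c f y * (kd i m * P c m i y) +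
        (1 / ‖y - c‖) * ph c v v0 vs y * pd m f y * (P c m i y * nn c i y) := by
      intro i m
      rw [P_symm i m, kd_symm i m]
      unfold Zs
      ring
    have s1 : ∑ i, ∑ m, (1 / ‖y - c‖) * ((-v0 y - fv f vs y) * nn c i y + tau c f y * vs i y) *
          (P c i m y * nn c m y) = 0 := by
      simp only [← Finset.mul_sum, P_nn hy, mul_zero, Finset.sum_const_zero]
    have s2 : ∑ i, ∑ m, (1 / ‖y - c‖) * (v y / ‖y - c‖) * tau c f y *
        (P c i m y * P c m i y) = (1 / ‖y - c‖) * (v y / ‖y - c‖) * tau c f y * (n - 1) := by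
      simp only [← Finset.mul_sum, P_P hy, P_tr hy]
    have s3 : ∑ i, ∑ m, (1 / ‖y - c‖) * (v y / ‖y - c‖) * (P c m i y * nn c i y) *
          (∑ j, P c m j y * pd j f y) = 0 := by
      rw [Finset.sum_comm]
      simp only [← Finset.sum_mul, ← Finset.mul_sum, P_nn hy, mul_zero, zero_mul,
        Finset.sum_const_zero]
    have s4 : ∑ i, ∑ m, (1 / ‖y - c‖) * ph c v v0 vs y * tau c f y * (kd i m * P c m i y) =
        (1 / ‖y - c‖) * ph c v v0 vs y * tau c f y * (n - 1) := by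
      simp only [← Finset.mul_sum, kd_sum, P_tr hy]
    have s5 : ∑ i, ∑ m, (1 / ‖y - c‖) * ph c v v0 vs y * pd m f y * (P c m i y * nn c i y) =
        0 := by
      rw [Finset.sum_comm]
      simp only [← Finset.mul_sum, P_nn hy, mul_zero, Finset.sum_const_zero]
    simp only [e, Finset.sum_add_distrib, Finset.sum_sub_distrib]
    rw [s1, s2, s3, s4, s5]
    field_simp
    ring
  rw [h5] at h3
  have h6 : tau c f y * (n - 1) / ‖y - c‖ ≠ 0 := div_ne_zero (mul_ne_zero (hτ y hyO) hn) hr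
  have h7 := (mul_eq_zero.mp h3).resolve_left h6
  linarith

lemma Zs_eq (_hy : y ≠ c) (h : ph c v v0 vs y = v y / ‖y - c‖) (m i : Fin n) :
    Zs c f v v0 vs m i y = nn c m y * Z0 c f v vs i y := by
  have h1 : -v0 y = v y / ‖y - c‖ - vr c vs y - (n - 1) * (v y / ‖y - c‖) := by
    unfold ph at h; linarith
  have e1 : ∑ j, P c m j y * pd j f y = pd m f y - nn c m y * ∑ j, nn c j y * pd j f y := by
    have e : ∀ j, P c m j y * pd j f y = kd m j * pd j f y - nn c m y * (nn c j y * pd j f y) :=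
      fun j => by unfold P; ring
    simp only [e, Finset.sum_sub_distrib, ← Finset.mul_sum, kd_sum]
  unfold Zs Z0
  rw [h, e1]
  have e2 : (-v0 y - fv f vs y) = v y / ‖y - c‖ - vr c vs y - (n - 1) * (v y / ‖y - c‖) -
      fv f vs y := by rw [h1]
  rw [e2]
  unfold P tau
  ring

/-- **Rigidity.** -/
theorem rig {O : Set (E n)} (hO : IsOpen O) (hc : ∀ y ∈ O, y ≠ c)
    (hf : ∀ y ∈ O, ContDiffAt ℝ ∞ f y) (hv : ∀ y ∈ O, ContDiffAt ℝ ∞ v y)
    (h0 : ∀ y ∈ O, ContDiffAt ℝ ∞ v0 y) (hs : ∀ y ∈ O, ∀ i, ContDiffAt ℝ ∞ (vs i) y)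
    (hτ : ∀ y ∈ O, tau c f y ≠ 0) (hn : (n : ℝ) - 1 ≠ 0)
    (hch : ∀ y ∈ O, ∀ i, pd i v y = vs i y + pd i f y * v0 y)
    (d0 : ∀ y ∈ O, ∑ i, pd i (Z0 c f v vs i) y = 0)
    (ds : ∀ m, ∀ y ∈ O, ∑ i, pd i (Zs c f v v0 vs m i) y = 0) :
    ∀ y ∈ O, v0 y = 0 ∧ ∀ i, vs i y = -((n - 2) * (v y / ‖y - c‖) * nn c i y) := by
  have h1 := step1 hO hc hf hv h0 hs hτ hn d0 ds
  -- the tangential derivatives vanish
  have h2 : ∀ y ∈ O, ∀ m, vs m y = vr c vs y * nn c m y := by
    intro y hyO m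
    have hy := hc y hyO
    have hr := rho_ne hy
    have h3 : ∀ i, pd i (Zs c f v v0 vs m i) y =
        P c m i y / ‖y - c‖ * Z0 c f v vs i y + nn c m y * pd i (Z0 c f v vs i) y := by
      intro i
      have hev : Zs c f v v0 vs m i =ᶠ[𝓝 y] fun y => nn c m y * Z0 c f v vs i y := by
        filter_upwards [hO.mem_nhds hyO] with z hz
        exact Zs_eq (hc z hz) (h1 z hz) m i
      rw [Vale.Agent.P366.pd_congr hev i]
      have h4 := (dp_nn hy m i).mul
        (DP.of (k := i) (dd (cd_Z0 hy (hf y hyO) (hv y hyO) (hs y hyO) i)))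
      rw [h4.2]
      rfl
    have h5 := ds m y hyO
    simp only [h3, Finset.sum_add_distrib, ← Finset.mul_sum, d0 y hyO] at h5
    have e : ∀ i, P c m i y / ‖y - c‖ * Z0 c f v vs i y =
        tau c f y / ‖y - c‖ * (kd m i * vs i y - nn c m y * (nn c i y * vs i y)) -
        (fv f vs y + vr c vs y + (n - 1) * (v y / ‖y - c‖)) / ‖y - c‖ *
          (P c m i y * nn c i y) := by
      intro i
      unfold Z0 P
      ring
    simp only [e, Finset.sum_sub_distrib, ← Finset.mul_sum, kd_sum, P_nn hy] at h5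
    have e2 : ∑ i, nn c i y * vs i y = vr c vs y := rfl
    rw [e2] at h5
    have h6 : tau c f y / ‖y - c‖ ≠ 0 := div_ne_zero (hτ y hyO) hr
    have h7 : tau c f y / ‖y - c‖ * (vs m y - nn c m y * vr c vs y) = 0 := by linarith
    have h8 := (mul_eq_zero.mp h7).resolve_left h6
    linarith
  -- `Z_0` is radial
  have h3 : ∀ y ∈ O, ∀ i, Z0 c f v vs i y = -((n - 1) * (v y / ‖y - c‖ * nn c i y)) := by
    intro y hyO i
    have hy := hc y hyO
    have hfv : fv f vs y = vr c vs y * ∑ j, nn c j y * pd j f y := by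
      unfold fv
      rw [Finset.mul_sum]
      refine Finset.sum_congr rfl fun j _ => ?_
      rw [h2 y hyO j]; ring
    unfold Z0
    rw [h2 y hyO i, hfv]
    unfold tau
    ring
  intro y hyO
  have hy := hc y hyO
  have hr := rho_ne hy
  have hrad : ∑ i, nn c i y * pd i v y = -((n - 2) * (v y / ‖y - c‖)) := by
    have h4 : ∀ i, pd i (Z0 c f v vs i) y = -((n - 1) * (((pd i v y * ‖y - c‖ -
        v y * nn c i y) / ‖y - c‖ ^ 2) * nn c i y + v y / ‖y - c‖ *
          (P c i i y / ‖y - c‖))) := by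
      intro i
      have hev : Z0 c f v vs i =ᶠ[𝓝 y] fun y => -((n - 1) * (v y / ‖y - c‖ * nn c i y)) := by
        filter_upwards [hO.mem_nhds hyO] with z hz
        exact h3 z hz i
      rw [Vale.Agent.P366.pd_congr hev i]
      have hd1 : DP i (fun y => v y / ‖y - c‖)
          ((pd i v y * ‖y - c‖ - v y * nn c i y) / ‖y - c‖ ^ 2) y := by
        have hrd := (dp_rho hy i).1
        have h5 : HasFDerivAt (fun y => ‖y - c‖⁻¹) (-(‖y - c‖ ^ 2)⁻¹ •
            fderiv ℝ (fun y : E n => ‖y - c‖) y) y :=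
          (hasDerivAt_inv hr).comp_hasFDerivAt y hrd.hasFDerivAt
        have h7 : DP i (fun y => ‖y - c‖⁻¹) (-(‖y - c‖ ^ 2)⁻¹ * nn c i y) y := by
          refine ⟨h5.differentiableAt, ?_⟩
          have h6 := (dp_rho hy i).2
          unfold Vale.Agent.P366.pd at h6 ⊢
          rw [h5.fderiv]
          change -(‖y - c‖ ^ 2)⁻¹ * fderiv ℝ (fun y : E n => ‖y - c‖) y
            (EuclideanSpace.single i 1) = _
          rw [h6]
        have h8 := (DP.of (k := i) (dd (hv y hyO))).mul h7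
        have e8 : (fun y => v y / ‖y - c‖) = fun y => v y * ‖y - c‖⁻¹ := by
          funext y; rw [div_eq_mul_inv]
        rw [e8]
        refine ⟨h8.1, ?_⟩
        rw [h8.2]
        field_simp
        ring
      have hd2 := (hd1.mul (dp_nn hy i i)).cmul (-((n:ℝ) - 1))
      have e : (fun y => -(((n:ℝ) - 1) * (v y / ‖y - c‖ * nn c i y))) =
          fun y => -((n:ℝ) - 1) * (v y / ‖y - c‖ * nn c i y) := by funext y; ring
      rw [e, hd2.2]
      unfold P
      ring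
    have h5 := d0 y hyO
    simp only [h4, Finset.sum_neg_distrib, ← Finset.mul_sum, neg_eq_zero] at h5
    have h6 := (mul_eq_zero.mp h5).resolve_left hn
    have e : ∀ i, (pd i v y * ‖y - c‖ - v y * nn c i y) / ‖y - c‖ ^ 2 * nn c i y +
        v y / ‖y - c‖ * (P c i i y / ‖y - c‖) =
        (1 / ‖y - c‖) * (nn c i y * pd i v y) - v y / ‖y - c‖ ^ 2 * (nn c i y * nn c i y) +
          v y / ‖y - c‖ ^ 2 * P c i i y := by
      intro i
      field_simp
    simp only [e, Finset.sum_add_distrib, Finset.sum_sub_distrib, ← Finset.mul_sum, sum_nn hy,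
      P_tr hy] at h6
    field_simp at h6 ⊢
    linarith
  have hrad2 : ∑ i, nn c i y * pd i v y =
      vr c vs y + (∑ j, nn c j y * pd j f y) * v0 y := by
    unfold vr
    rw [Finset.sum_mul, ← Finset.sum_add_distrib]
    refine Finset.sum_congr rfl fun i _ => ?_
    rw [hch y hyO i]; ring
  have hph := h1 y hyO
  unfold ph at hph
  have hv0 : v0 y = vr c vs y + (n - 2) * (v y / ‖y - c‖) := by linarith
  have hτv : tau c f y * v0 y = 0 := by
    rw [hrad] at hrad2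
    unfold tau
    have : (1 + ∑ j, nn c j y * pd j f y) * v0 y =
        v0 y + (∑ j, nn c j y * pd j f y) * v0 y := by ring
    rw [this]
    linarith
  have hv00 := (mul_eq_zero.mp hτv).resolve_left (hτ y hyO)
  refine ⟨hv00, fun i => ?_⟩
  rw [h2 y hyO i]
  have : vr c vs y = -((n - 2) * (v y / ‖y - c‖)) := by linarith
  rw [this]
  ring

end Vale.Agent.P366.KSL.Rig
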