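import Vale.Agent.P366.H745.Eq6
import Vale.Agent.P366.H745.N3

/-! The equality case of the inequality for a null shell in terms of the support function and the
time function. -/

open MeasureTheory Metric Filter Topology Set
open scoped ContDiff

noncomputable section
namespace Vale.Agent.P366.Shell

open Vale.Agent.P366 (sphI sphM pd Nc pd_Nc sum_Nc_sq)
open Vale.Agent.P366.H353.N

variable {n : ℕ} {x : E n}

/-- Equality in the frame `a`: the boosted surface is a round sphere. -/
theorem bm_round [Fact (3 ≤ n)] (D : Dat n) (T : Ten n) (hTA : T.A = D.A) (hTb : T.b = D.b)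
    {q : E n → ℝ} (hq : ∀ x : E n, ‖x‖ = 1 → q x = (1 - ∑ i, T.b x i ^ 2) * H353.N.tr (T.A x) -
      2 * (∑ i, ∑ j, T.A x i j * pd i (fun y => T.b y j) x) + 2 * qf (T.A x) (T.b x) (T.b x))
    (a : Fin n → ℝ)
    (heq : SI (fun x => q x * (e0 a + ∑ i, a i * x i)) =
      1 / 2 * (SI D.dt / om n) ^ (((n : ℝ) - 2) / ((n : ℝ) - 1)) * (2 * ((n : ℝ) - 1) * om n)) :
    ∃ r : ℝ, 0 < r ∧ ∃ p : Vec n, ∀ z : E n, z ≠ 0 → bm a (surf D) z = p + r • rd z := by
  set h := isSurface_surf D with hdef
  obtain ⟨L, hL⟩ := exists_normal h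
  obtain ⟨T', hTA', hTb', -⟩ := toTen (dat h)
  have hA : ∀ y : E n, y ≠ 0 → ∀ i j, T'.A y i j = T.A y i j := fun y hy i j => by
    rw [hTA', hTA]; exact A_surf D hy i j
  have hb : ∀ y : E n, y ≠ 0 → ∀ i, T'.b y i = T.b y i := fun y hy i => by
    rw [hTb', hTb]; exact b_surf D hy i
  have hqq : ∀ x : E n, ‖x‖ = 1 → qq (surf D) L x = q x := by
    intro x hx
    have h0 := ne_zero_of_one hx
    rw [hq x hx]
    unfold qq
    rw [theta_dens h T' hTA' hTb' hL hx]
    have e1 : ∀ i j, pd i (fun y => T'.b y j) x = pd i (fun y => T.b y j) x := fun i j =>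
      pd_congr' (fun y hy => hb y hy j) h0 i
    have e2 : T'.A x = T.A x := funext fun i => funext fun j => hA x h0 i j
    have e3 : T'.b x = T.b x := funext fun i => hb x h0 i
    simp only [e1, e2, e3]
  have k2 : area (surf D) = SI D.dt := by
    rw [area_eq h]
    exact SI_congr fun x hx => dt_surf D (ne_zero_of_one hx)
  have h2 : SI (fun x => qq (surf D) L x * (e0 a + sp a x)) =
      1 / 2 * (area (surf D) / om n) ^ (((n : ℝ) - 2) / ((n : ℝ) - 1)) *
        (2 * ((n : ℝ) - 1) * om n) := by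
    rw [k2, ← heq]
    refine SI_congr fun x hx => ?_
    rw [hqq x hx]
    rfl
  have h3 := pow_val h
  rw [← h2, ← SI_bm h hL a, ← area_bm h a] at h3
  exact base_eq (isSurface_bm (a := a) h) (isNormal_bl hL h.toIsMap) h3.symm

lemma mink_add_left (u v w : Vec n) : mink (u + v) w = mink u w + mink v w := by
  have h := mink_lin_left (Finset.univ : Finset (Fin 2)) (fun _ => 1) ![u, v] w
  simp only [Fin.sum_univ_two, Matrix.cons_val_zero, Matrix.cons_val_one, one_mul] at h
  rw [← h]
  rfl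

/-- The support function of a round sphere in a spacelike hyperplane. -/
theorem H_round (D : Dat n) {a : Fin n → ℝ} {r : ℝ} {p : Vec n}
    (h : ∀ z : E n, z ≠ 0 → bm a (surf D) z = p + r • rd z) :
    ∃ (k : ℝ) (c : E n), ∀ x, x ≠ 0 → D.H x = k * ‖x‖ + ∑ i, c i * x i := by
  set w : Vec n := bst a (p + r • tv n) with hw
  refine ⟨w 0, WithLp.toLp 2 fun i => w i.succ, fun x hx => ?_⟩
  have hz : phi (-a) x ≠ 0 := phi_ne hx
  have h1 := h _ hz
  have h2 : bm a (surf D) (phi (-a) x) = bst (-a) (surf D x) := by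
    unfold bm
    rw [phi_phi_neg a hx]
  have h3 := bst_kv_phi a hz
  rw [phi_phi_neg a hx] at h3
  rw [h2] at h1
  have h4 : mink (surf D x) (kv x) = mink w (kv x) := by
    rw [← mink_bst (-a) (surf D x) (kv x), ← mink_bst (-a) w (kv x), h1]
    have e1 : bst (-a) w = p + r • tv n := by
      have := bst_neg_bst (-a) (p + r • tv n)
      rwa [neg_neg] at this
    rw [e1, h3, mink_smul_right, mink_smul_right, mink_add_left, mink_add_left, mink_smul_left,
      mink_smul_left]
    congr 3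
    rw [mink_kv, mink_kv]
    simp only [rd_zero, rd_succ, nn hz]
    have e2 : (tv n) 0 = 1 := rfl
    have e3 : ∀ i : Fin n, (tv n) i.succ = 0 := fun i => rfl
    rw [e2]
    simp only [e3, zero_mul, Finset.sum_const_zero]
    ring
  have h5 : D.H x = - ‖x‖ * mink (surf D x) (kv x) := by
    rw [← Hf_surf D hx, mink_kv]
    unfold Hf
    have e : ∑ i : Fin n, x i * surf D x i.succ = ‖x‖ * ∑ i : Fin n, surf D x i.succ * Nc i x := by
      rw [Finset.mul_sum]
      exact Finset.sum_congr rfl fun i _ => by rw [← norm_Nc i hx]; ring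
    rw [e]
    ring
  rw [h5, h4, mink_kv]
  have e : ∑ i : Fin n, w i.succ * x i = ‖x‖ * ∑ i : Fin n, w i.succ * Nc i x := by
    rw [Finset.mul_sum]
    exact Finset.sum_congr rfl fun i _ => by rw [← norm_Nc i hx]; ring
  show _ = w 0 * ‖x‖ + ∑ i : Fin n, w i.succ * x i
  rw [e]
  ring

lemma bst_zero_eq (v : Vec n) : bst 0 v = v := by
  ext c
  refine Fin.cases ?_ (fun i => ?_) c
  · rw [bst_zero]; simp [e0]
  · rw [bst_succ]; simp

lemma phi_zero (hx : x ≠ 0) : phi 0 x = x := by
  have h1 : psi 0 x = x := by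
    ext i
    rw [psi_apply]; simp
  unfold phi
  rw [h1, div_self (norm_ne_zero_iff.mpr hx), one_smul]

/-- In the rest frame the time function is constant. -/
theorem U_round (D : Dat n) {r : ℝ} {p : Vec n}
    (h : ∀ z : E n, z ≠ 0 → bm 0 (surf D) z = p + r • rd z) :
    ∃ u : ℝ, ∀ x, x ≠ 0 → D.U x = u := by
  refine ⟨- p 0, fun x hx => ?_⟩
  have h1 := h x hx
  unfold bm at h1
  rw [phi_zero hx, neg_zero, bst_zero_eq] at h1
  have h2 := congrFun h1 0
  have h3 : (p + r • rd x) 0 = p 0 := by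
    show p 0 + r * rd x 0 = p 0
    rw [rd_zero]; ring
  rw [h3, surf_zero] at h2
  linarith

end Vale.Agent.P366.Shell
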