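import Vale.Agent.P366.H222.L.Asm
import Vale.Agent.P366.H707.L.EqShell

/-! Kerr-Schild spacetimes with a null geodesic covector field: the case of equality. -/

open MeasureTheory Metric Filter Topology Set
open scoped ContDiff ENNReal

noncomputable section
namespace Vale.Agent.P366.KSL

open Vale.Agent.P366 (pd E flux sphI)
open Vale.Agent.P366.H353.N
open Vale.Agent.P366.Kerr (NullCone Psi pt sp indG indK sgn ksL ein IsKS FutTimelike DECatL IsGraph
  IsSliceL HasDEC)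
open Vale.Agent.P366.KSN (Y dts sg)

variable {n : ℕ} {C : NullCone n} {l : Fin (n + 1) → E (n + 1) → ℝ} {V : E (n + 1) → ℝ}
  {f f₁ : E n → ℝ} {D : Stmt.Exterior n} {p : E (n + 1)} {x y : E n}

/-- the boundary density of the cone -/
def qT (T : Ten n) (x : E n) : ℝ := (1 - ∑ i, T.b x i ^ 2) * H353.N.tr (T.A x) -
      2 * (∑ i, ∑ j, T.A x i j * pd i (fun y => T.b y j) x) + 2 * qf (T.A x) (T.b x) (T.b x)

theorem sum_pd_Fa (hG : IsGraph C l V f D) (hy : 0 ≤ D.F y) (a : Fin n → ℝ) :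
    ∑ i, pd i (Fa l V f a i) y = -∑ b, xi a b * ∑ i, pd i (Zf l V f b i) y := by
  have e1 : ∀ i, pd i (Fa l V f a i) y = -∑ b, xi a b * pd i (Zf l V f b i) y := by
    intro i
    have hd : ∀ b, DifferentiableAt ℝ (Zf l V f b i) y := fun b =>
      (Z_smooth hG hy b i).differentiableAt (by simp)
    unfold Vale.Agent.P366.pd
    have h1 : HasFDerivAt (Fa l V f a i) (-∑ b, xi a b • fderiv ℝ (Zf l V f b i) y) y := by
      unfold Fa
      exact (HasFDerivAt.fun_sum fun b _ => (hd b).hasFDerivAt.const_mul (xi a b)).neg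
    rw [h1.fderiv]
    simp
  simp only [e1]
  rw [Finset.sum_neg_distrib, Finset.sum_comm]
  simp only [← Finset.mul_sum]

/-- The flux of the field of the vector `(e0 a, a)` at infinity. -/
theorem flux_Fa [Fact (3 ≤ n)] (hS : IsSliceL C l V f D) (hD : HasDEC C l V f f₁ D) (hAF : D.IsAF)
    {m : ℝ} {P : Fin n → ℝ} (hm : D.IsEnergy m) (hP : D.IsMomentum P) (a : Fin n → ℝ) :
    Tendsto (flux (Fa l V f₁ a)) atTop (𝓝 (((n : ℝ) - 1) * om n *
      (Shell.e0 a * m + ∑ i, a i * P i))) := by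
  have h4 := af4 hS hAF
  have h0 := H474.L.flux_zero hS h4 hm
  have hj := fun j => H474.L.flux_succ hS h4 hP j
  have hsum : Tendsto (fun r => -∑ b, xi a b * flux (Zf l V f b) r) atTop
      (𝓝 (-∑ b, xi a b * (Fin.cons (α := fun _ => ℝ) (-(((n : ℝ) - 1) * om n * m))
        (fun j => -(((n : ℝ) - 1) * om n * P j)) b : ℝ))) := by
    refine (tendsto_finsetSum _ fun b _ => ?_).neg
    refine Tendsto.const_mul _ ?_
    refine Fin.cases ?_ (fun j => ?_) b
    · simpa only [Fin.cons_zero] using h0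
    · simpa only [Fin.cons_succ] using hj j
  have elim : -∑ b, xi a b * (Fin.cons (α := fun _ => ℝ) (-(((n : ℝ) - 1) * om n * m))
        (fun j => -(((n : ℝ) - 1) * om n * P j)) b : ℝ) =
      ((n : ℝ) - 1) * om n * (Shell.e0 a * m + ∑ i, a i * P i) := by
    rw [Fin.sum_univ_succ]
    simp only [xi, Fin.cons_zero, Fin.cons_succ]
    have e2 : ∀ i : Fin n, a i * -(((n : ℝ) - 1) * om n * P i) =
        -(((n : ℝ) - 1) * om n) * (a i * P i) := fun i => by ring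
    simp only [e2, ← Finset.mul_sum]
    ring
  rw [elim] at hsum
  refine hsum.congr' ?_
  obtain ⟨R1, hR1⟩ := far_mem D
  obtain ⟨R2, hR2⟩ := hD.far
  filter_upwards [eventually_gt_atTop (max (max R1 R2) 0)] with r hr
  have hr0 : 0 < r := (le_max_right _ _).trans_lt hr
  have hrR : max R1 R2 < r := (le_max_left _ _).trans_lt hr
  have hrR1 : R1 < r := (le_max_left _ _).trans_lt hrR
  have hrR2 : R2 < r := (le_max_right _ _).trans_lt hrR
  rw [← flux_lin hr0 (xi a) (W := Zf l V f) fun b i y hy =>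
    (Z_smooth hS.toIsGraph (hR1 y (by rw [hy]; exact hrR1)) b i).continuousAt]
  refine H474.W.flux_congr hr0 fun i y hy => ?_
  show -∑ b, xi a b * Zf l V f b i y = -∑ b, xi a b * Zf l V f₁ b i y
  congr 1
  refine Finset.sum_congr rfl fun b _ => ?_
  congr 1
  refine Zf_congr ?_ b i
  have : ∀ᶠ z in 𝓝 y, R2 < ‖z‖ := continuous_norm.continuousAt.eventually
    (lt_mem_nhds (show R2 < ‖y‖ by rw [hy]; exact hrR2))
  filter_upwards [this] with z hz
  exact (hR2 z hz).symm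

theorem mem_bdr (hS : IsSliceL C l V f D) (hx : ‖x‖ = 1) : 0 ≤ D.F (Y C.H x (C.U x)) := by
  have hU := C.pos x (ne_zero_of_one hx)
  rw [← KSN.Y_eq C hx hU, hS.dom]
  refine ⟨C.U x • x, smul_ne_zero hU.ne' (ne_zero_of_one hx), ?_, rfl⟩
  rw [KSN.U_smul C (ne_zero_of_one hx) hU, KSN.norm_smul_unit hx hU.le]

/-- the boundary weight -/
def wS (C : NullCone n) (l : Fin (n + 1) → E (n + 1) → ℝ) (V : E (n + 1) → ℝ) (x : E n) : ℝ :=
  V (pt (- C.U x) (Y C.H x (C.U x))) *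
    l 0 (pt (- C.U x) (Y C.H x (C.U x))) ^ 2 * sg C.H (C.U x) x

theorem bdr_Fa [Fact (3 ≤ n)] (hS : IsSliceL C l V f D) (hD : HasDEC C l V f f₁ D)
    (a : Fin n → ℝ) :
    SI (fun x => dts C.H (C.U x) x *
      ∑ i, Fa l V f₁ a i (Y C.H x (C.U x)) * (x i - C.toDat.b x i)) =
      1 / 2 * SI (fun x => wS C l V x * (Shell.e0 a + ∑ i, a i * x i)) := by
  rw [← SI_cmul]
  refine SI_congr fun x hx => ?_
  have e1 : dts C.H (C.U x) x * ∑ i, Fa l V f₁ a i (Y C.H x (C.U x)) * (x i - C.toDat.b x i) =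
      -∑ b, xi a b * (dts C.H (C.U x) x *
        ∑ i, Zf l V f₁ b i (Y C.H x (C.U x)) * (x i - C.toDat.b x i)) := by
    simp only [Fa, Finset.mul_sum, Finset.sum_mul, neg_mul, mul_neg,
      Finset.sum_neg_distrib]
    rw [Finset.sum_comm]
    congr 1
    exact Finset.sum_congr rfl fun b _ => Finset.sum_congr rfl fun i _ => by ring
  rw [e1]
  simp only [Z_bdrD hS.dom hD hS.nor hx]
  rw [Fin.sum_univ_succ]
  simp only [xi, lx, Fin.cons_zero, Fin.cons_succ, wS]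
  have e2 : ∀ i : Fin n, a i * (-(1 / 2 * (V (pt (- C.U x) (Y C.H x (C.U x))) *
      l 0 (pt (- C.U x) (Y C.H x (C.U x))) ^ 2 * sg C.H (C.U x) x)) * x i) =
      -(1 / 2 * (V (pt (- C.U x) (Y C.H x (C.U x))) *
      l 0 (pt (- C.U x) (Y C.H x (C.U x))) ^ 2 * sg C.H (C.U x) x)) * (a i * x i) :=
    fun i => by ring
  simp only [e2, ← Finset.mul_sum]
  ring

theorem qT_sm (T : Ten n) : Sm (qT T) := by
  have hb2 : Sm fun x => ∑ i, T.b x i ^ 2 := Sm.sum _ fun i => (T.smb i).pow 2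
  have htr : Sm fun x => H353.N.tr (T.A x) := Sm.sum _ fun i => T.smA i i
  have h2 : Sm fun x => ∑ i, ∑ j, T.A x i j * pd i (fun y => T.b y j) x :=
    Sm.sum _ fun i => Sm.sum _ fun j => (T.smA i j).mul ((T.smb j).pd i)
  have h5 : Sm fun x => qf (T.A x) (T.b x) (T.b x) :=
    Sm.sum _ fun i => Sm.sum _ fun j => ((T.smA i j).mul (T.smb i)).mul (T.smb j)
  exact ((((Sm.const 1).sub hb2).mul htr).sub ((Sm.const 2).mul h2)).add ((Sm.const 2).mul h5)

theorem wS_cont (hS : IsSliceL C l V f D) : ContinuousOn (wS C l V) (sphere (0 : E n) 1) := by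
  have hpt : ∀ x : E n, ‖x‖ = 1 →
      ContinuousAt (fun x => pt (- C.U x) (Y C.H x (C.U x))) x := fun x hx =>
    (KSN.pt_comp ((KSN.smU C).neg x (ne_zero_of_one hx))
      (KSN.Y_comp C (KSN.smU C) (ne_zero_of_one hx))).continuousAt
  have hks : ∀ x : E n, ‖x‖ = 1 → IsKS l V (pt (- C.U x) (Y C.H x (C.U x))) := by
    intro x hx
    have hU := C.pos x (ne_zero_of_one hx)
    have h6 := hS.bdr (C.U x • x) (smul_ne_zero hU.ne' (ne_zero_of_one hx)) (by
      rw [KSN.U_smul C (ne_zero_of_one hx) hU, KSN.norm_smul_unit hx hU.le])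
    rw [KSN.Y_eq C hx hU, KSN.U_smul C (ne_zero_of_one hx) hU] at h6
    rw [← h6]
    exact hS.ks _ (mem_bdr hS hx)
  refine ContinuousOn.mul (ContinuousOn.mul ?_ (ContinuousOn.pow ?_ 2))
    (KSN.sg_cont C (KSN.smU C))
  · intro x hx
    have hx1 : ‖x‖ = 1 := by simpa using hx
    exact (ContinuousAt.comp (f := fun x => pt (- C.U x) (Y C.H x (C.U x))) (x := x)
      (hks x hx1).smV.continuousAt (hpt x hx1)).continuousWithinAt
  · intro x hx
    have hx1 : ‖x‖ = 1 := by simpa using hx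
    exact (ContinuousAt.comp (f := fun x => pt (- C.U x) (Y C.H x (C.U x))) (x := x)
      ((hks x hx1).sml 0).continuousAt (hpt x hx1)).continuousWithinAt

/-- Equality in the frame of the vector `(e0 a, a)`. -/
theorem frame_eq [Fact (3 ≤ n)] (hS : IsSliceL C l V f D) (hD : HasDEC C l V f f₁ D)
    (hAF : D.IsAF) (hT : D.Trapped) {m : ℝ} {P : Fin n → ℝ} (hm : D.IsEnergy m)
    (hP : D.IsMomentum P) {T : Ten n} (hTA : T.A = C.toDat.A) (hTb : T.b = C.toDat.b)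
    (a : Fin n → ℝ)
    (heq : Shell.e0 a * m + ∑ i, a i * P i ≤
      1 / 2 * (SI C.toDat.dt / om n) ^ (((n : ℝ) - 2) / ((n : ℝ) - 1))) :
    (∀ y, 0 ≤ D.F y → ∑ b, xi a b * ∑ i, pd i (Zf l V f₁ b i) y = 0) ∧
    (∀ x : E n, ‖x‖ = 1 → qT T x = wS C l V x) ∧
    SI (fun x => qT T x * (Shell.e0 a + ∑ i, a i * x i)) =
      1 / 2 * (SI C.toDat.dt / om n) ^ (((n : ℝ) - 2) / ((n : ℝ) - 1)) *
        (2 * ((n : ℝ) - 1) * om n) := by
  have h3 := Fact.out (p := 3 ≤ n)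
  have hn : (3 : ℝ) ≤ (n : ℝ) := by exact_mod_cast h3
  have hom : 0 < om n := om_pos
  have hlim := flux_Fa hS hD hAF hm hP a
  have hst := stokes (D := D) (C := C) hS.dom hS.bdF (F := Fa l V f₁ a)
    (fun i y hy => Fa_smooth hD.toIsGraph hy a i)
    (fun y hy => div_Fa hS.dom hD hy a) hlim
  rw [bdr_Fa hS hD a] at hst
  have hqS : Sm (qT T) := qT_sm T
  have hwc := wS_cont hS
  have hqw : ∀ x : E n, ‖x‖ = 1 → qT T x ≤ wS C l V x := fun x hx => trapped hS hT hTA hTb hx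
  have hax : ContinuousOn (fun x : E n => Shell.e0 a + ∑ i, a i * x i) (sphere (0 : E n) 1) :=
    ((Sm.const (Shell.e0 a)).add (Sm.sum _ fun i => (Sm.const (a i)).mul (Sm.coord i))).contOn
  have h7 : SI (fun x => qT T x * (Shell.e0 a + ∑ i, a i * x i)) ≤
      SI (fun x => wS C l V x * (Shell.e0 a + ∑ i, a i * x i)) :=
    SI_mono (hqS.contOn.mul hax) (hwc.mul hax) fun x hx =>
      mul_le_mul_of_nonneg_right (hqw x hx) (ax_pos a hx).le
  have h8 : SI (fun x => qT T x * (Shell.e0 a + ∑ i, a i * x i)) =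
      Shell.e0 a * SI (qT T) + ∑ i, a i * SI (fun x => qT T x * x i) := by
    have e1 : ∀ x : E n, qT T x * (Shell.e0 a + ∑ i, a i * x i) =
        Shell.e0 a * qT T x + ∑ i, a i * (qT T x * x i) := by
      intro x
      rw [mul_add, Finset.mul_sum, mul_comm]
      congr 1
      exact Finset.sum_congr rfl fun i _ => by ring
    simp only [e1]
    have h9 : ∀ i, Sm fun x : E n => qT T x * x i := fun i => hqS.mul (Sm.coord i)
    rw [SI_add ((Sm.const (Shell.e0 a)).mul hqS).contOn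
      (Sm.sum _ fun i => (Sm.const (a i)).mul (h9 i)).contOn, SI_cmul]
    congr 1
    unfold SI
    rw [integral_finsetSum]
    · exact Finset.sum_congr rfl fun i _ => integral_const_mul _ _
    · intro i _
      exact (int_sph (h9 i).contOn).const_mul (a i)
  have h10 := Shell.shell_frame C.toDat T hTA hTb (q := qT T) (fun x _ => rfl) a
  have hc : 0 < 2 * ((n : ℝ) - 1) * om n := by
    have : 0 < (n : ℝ) - 1 := by linarith
    positivity
  rw [← h8, le_div_iff₀ hc] at h10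
  set M := 1 / 2 * (SI C.toDat.dt / om n) ^ (((n : ℝ) - 2) / ((n : ℝ) - 1)) with hM
  have h11 : ((n : ℝ) - 1) * om n * (Shell.e0 a * m + ∑ i, a i * P i) ≤
      1 / 2 * (M * (2 * ((n : ℝ) - 1) * om n)) := by
    have : 0 < ((n : ℝ) - 1) * om n := mul_pos (by linarith) hom
    have h := mul_le_mul_of_nonneg_left heq this.le
    linarith
  have h12 : SI (fun x => qT T x * (Shell.e0 a + ∑ i, a i * x i)) =
      M * (2 * ((n : ℝ) - 1) * om n) := by linarith
  have h13 : SI (fun x => wS C l V x * (Shell.e0 a + ∑ i, a i * x i)) =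
      M * (2 * ((n : ℝ) - 1) * om n) := by linarith
  refine ⟨?_, ?_, h12⟩
  · have h := stokes_zero (D := D) (C := C) hS.dom (F := Fa l V f₁ a)
      (fun i y hy => Fa_smooth hD.toIsGraph hy a i)
      (fun y hy => div_Fa hS.dom hD hy a) hlim
      (by rw [bdr_Fa hS hD a, h13]; exact h11)
    intro y hy
    have h1 := h y hy
    rw [sum_pd_Fa hD.toIsGraph hy a] at h1
    linarith
  · have c1 : ContinuousOn (fun x : E n => wS C l V x * (Shell.e0 a + ∑ i, a i * x i))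
        (sphere (0 : E n) 1) := hwc.mul hax
    have c2 : ContinuousOn (fun x : E n => qT T x * (Shell.e0 a + ∑ i, a i * x i))
        (sphere (0 : E n) 1) := hqS.contOn.mul hax
    have c3 : ContinuousOn (fun x : E n => wS C l V x * (Shell.e0 a + ∑ i, a i * x i) -
        qT T x * (Shell.e0 a + ∑ i, a i * x i)) (sphere (0 : E n) 1) := c1.sub c2
    have h14 : SI (fun x => wS C l V x * (Shell.e0 a + ∑ i, a i * x i) -
        qT T x * (Shell.e0 a + ∑ i, a i * x i)) = 0 := by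
      rw [SI_sub c1 c2, h12, h13, sub_self]
    have h15 := SI_eq_zero' c3 (fun x hx => by
      have := mul_le_mul_of_nonneg_right (hqw x hx) (ax_pos a hx).le
      linarith) h14
    intro x hx
    have h16 := h15 x hx
    have h17 := ax_pos a hx
    have h18 : (wS C l V x - qT T x) * (Shell.e0 a + ∑ i, a i * x i) = 0 := by
      rw [sub_mul]
      exact h16
    rcases mul_eq_zero.1 h18 with h | h
    · linarith
    · exact absurd h h17.ne'

/-- Equality for the mass: the frame `a = - P / M`. -/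
theorem mass_eq [Fact (3 ≤ n)] (hS : IsSliceL C l V f D) (hD : HasDEC C l V f f₁ D)
    (hAF : D.IsAF) (hT : D.Trapped) {m : ℝ} {P : Fin n → ℝ} (hm : D.IsEnergy m)
    (hP : D.IsMomentum P)
    (heq : (D.Amin.toReal / Stmt.omega n) ^ (((n : ℝ) - 2) / ((n : ℝ) - 1)) / 2 =
      √(m ^ 2 - ∑ i, P i ^ 2)) :
    ∃ a : Fin n → ℝ, (P = 0 → a = 0) ∧ Shell.e0 a * m + ∑ i, a i * P i ≤
      1 / 2 * (SI C.toDat.dt / om n) ^ (((n : ℝ) - 2) / ((n : ℝ) - 1)) := by
  have h3 := Fact.out (p := 3 ≤ n)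
  have hn : (3 : ℝ) ≤ (n : ℝ) := by exact_mod_cast h3
  have hom : 0 < om n := om_pos
  have hdt : SI C.toDat.dt = SI (fun x => dts C.H (C.U x) x) :=
    SI_congr fun x hx => X3.dt_one C.toDat hx
  have hA : 0 < SI C.toDat.dt := by
    rw [hdt]
    exact KSN.SI_pos (KSN.dts_cont C (KSN.smU C)) fun x hx => KSN.dts_pos C hx le_rfl
  have h6 := area_le hS
  rw [← hdt] at h6
  have htop : D.Amin ≠ ⊤ := ne_top_of_le_ne_top ENNReal.ofReal_ne_top h6
  have hle : D.Amin.toReal ≤ SI C.toDat.dt := by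
    have := (ENNReal.toReal_le_toReal htop ENNReal.ofReal_ne_top).2 h6
    rwa [ENNReal.toReal_ofReal hA.le] at this
  have h4 : (D.Amin.toReal / om n) ^ (((n : ℝ) - 2) / ((n : ℝ) - 1)) ≤
      (SI C.toDat.dt / om n) ^ (((n : ℝ) - 2) / ((n : ℝ) - 1)) := by
    refine Real.rpow_le_rpow (div_nonneg ENNReal.toReal_nonneg hom.le) (by gcongr) ?_
    have h5 : 0 < (n : ℝ) - 1 := by linarith
    exact div_nonneg (by linarith) h5.le
  obtain ⟨-, hlt, -⟩ := final hS hD hAF hT hm hP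
  rw [KSN.om_eq] at heq
  have hm0 : 0 < m := (Real.sqrt_nonneg _).trans_lt hlt
  have hQ : √(∑ i, P i ^ 2) ^ 2 = ∑ i, P i ^ 2 :=
    Real.sq_sqrt (Finset.sum_nonneg fun i _ => sq_nonneg _)
  have hpos : 0 < m ^ 2 - ∑ i, P i ^ 2 := by
    have := Real.sqrt_nonneg (∑ i, P i ^ 2)
    nlinarith
  set s := √(m ^ 2 - ∑ i, P i ^ 2) with hs
  have hs0 : 0 < s := Real.sqrt_pos.mpr hpos
  have hss : s ^ 2 = m ^ 2 - ∑ i, P i ^ 2 := Real.sq_sqrt hpos.le
  refine ⟨fun i => - P i / s, fun h => ?_, ?_⟩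
  · funext i
    rw [h]
    simp
  · have e1 : Shell.e0 (fun i => - P i / s) = m / s := by
      unfold Shell.e0
      rw [show 1 + ∑ i, (- P i / s) ^ 2 = (m / s) ^ 2 by
        have : ∑ i, (- P i / s) ^ 2 = (∑ i, P i ^ 2) / s ^ 2 := by
          rw [Finset.sum_div]
          exact Finset.sum_congr rfl fun i _ => by ring
        rw [this]
        field_simp
        linarith]
      exact Real.sqrt_sq (div_nonneg hm0.le hs0.le)
    have e2 : ∑ i, - P i / s * P i = - (∑ i, P i ^ 2) / s := by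
      rw [← Finset.sum_neg_distrib, Finset.sum_div]
      exact Finset.sum_congr rfl fun i _ => by ring
    have e3 : m / s * m + - (∑ i, P i ^ 2) / s = s := by
      field_simp
      linarith
    rw [e1, e2, e3, ← heq]
    linarith

/-- The case of equality: the divergence of the field of a future timelike vector vanishes on the
hypersurface `t = f₁(y)`, and the null cone is the cone of a point. -/
theorem eq_cone' [Fact (3 ≤ n)] (hS : IsSliceL C l V f D) (hD : HasDEC C l V f f₁ D)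
    (hAF : D.IsAF) (hT : D.Trapped) {m : ℝ} {P : Fin n → ℝ} (hm : D.IsEnergy m)
    (hP : D.IsMomentum P)
    (heq : (D.Amin.toReal / Stmt.omega n) ^ (((n : ℝ) - 2) / ((n : ℝ) - 1)) / 2 =
      √(m ^ 2 - ∑ i, P i ^ 2)) :
    (∃ xi : Fin (n + 1) → ℝ, ∑ i : Fin n, xi i.succ ^ 2 < xi 0 ^ 2 ∧ 0 < xi 0 ∧
      ∀ y, 0 ≤ D.F y → ∑ b, xi b * ∑ i, pd i (Zf l V f₁ b i) y = 0) ∧
    ∃ (k : ℝ) (c : E n), ∀ x, x ≠ 0 → C.H x = k * ‖x‖ + ∑ i, c i * x i := by
  obtain ⟨T, hTA, hTb, -⟩ := toTen C.toDat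
  obtain ⟨a, -, ha⟩ := mass_eq hS hD hAF hT hm hP heq
  obtain ⟨h1, -, h3⟩ := frame_eq hS hD hAF hT hm hP hTA hTb a ha
  refine ⟨⟨xi a, ?_, ?_, h1⟩, ?_⟩
  · simp only [xi, Fin.cons_succ, Fin.cons_zero]
    rw [Shell.e0_sq]
    linarith
  · exact e0_pos a
  · obtain ⟨r, hr, p, hp⟩ := Shell.bm_round C.toDat T hTA hTb (q := qT T) (fun x _ => rfl) a h3
    exact Shell.H_round C.toDat hp

/-- [E1] (707 + 745): equality, in the minimizing frame. -/
theorem eq_cone [Fact (3 ≤ n)] (hS : IsSliceL C l V f D) (hD : HasDEC C l V f f D) (hAF : D.IsAF)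
    (hT : D.Trapped) {m : ℝ} {P : Fin n → ℝ} (hm : D.IsEnergy m) (hP : D.IsMomentum P)
    (heq : (D.Amin.toReal / Stmt.omega n) ^ (((n : ℝ) - 2) / ((n : ℝ) - 1)) / 2 =
      √(m ^ 2 - ∑ i, P i ^ 2)) :
    (∃ xi : Fin (n + 1) → ℝ, ∑ i : Fin n, xi i.succ ^ 2 < xi 0 ^ 2 ∧ 0 < xi 0 ∧
      ∀ y, 0 ≤ D.F y → ∑ b, xi b * ∑ i, pd i (Zf l V f b i) y = 0) ∧
    ∃ (k : ℝ) (c : E n), ∀ x, x ≠ 0 → C.H x = k * ‖x‖ + ∑ i, c i * x i :=
  eq_cone' hS hD hAF hT hm hP heq

/-- The case of equality for `P = 0`: the time function is constant, and `V l₀² = 1` on the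
boundary surface. -/
theorem eq_zero' [Fact (3 ≤ n)] (hS : IsSliceL C l V f D) (hD : HasDEC C l V f f₁ D)
    (hAF : D.IsAF) (hT : D.Trapped) {m : ℝ} {P : Fin n → ℝ} (hm : D.IsEnergy m)
    (hP : D.IsMomentum P)
    (heq : (D.Amin.toReal / Stmt.omega n) ^ (((n : ℝ) - 2) / ((n : ℝ) - 1)) / 2 =
      √(m ^ 2 - ∑ i, P i ^ 2)) (hP0 : P = 0) :
    ∃ u : ℝ, 0 < u ∧ (∀ x, x ≠ 0 → C.U x = u) ∧ ∀ x : E n, ‖x‖ = 1 →
      V (pt (- C.U x) (Y C.H x (C.U x))) * l 0 (pt (- C.U x) (Y C.H x (C.U x))) ^ 2 = 1 := by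
  have h3n := Fact.out (p := 3 ≤ n)
  obtain ⟨T, hTA, hTb, -⟩ := toTen C.toDat
  obtain ⟨a, ha0, ha⟩ := mass_eq hS hD hAF hT hm hP heq
  obtain ⟨-, h2, h3⟩ := frame_eq hS hD hAF hT hm hP hTA hTb a ha
  obtain ⟨r, hr, p, hp⟩ := Shell.bm_round C.toDat T hTA hTb (q := qT T) (fun x _ => rfl) a h3
  rw [ha0 hP0] at hp
  obtain ⟨u, hu⟩ := Shell.U_round C.toDat hp
  have hu' : ∀ x, x ≠ 0 → C.U x = u := hu
  obtain ⟨e, he⟩ : ∃ e : E n, ‖e‖ = 1 :=
    ⟨EuclideanSpace.single (⟨0, by omega⟩ : Fin n) 1, by simp⟩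
  have hupos : 0 < u := by
    rw [← hu' e (ne_zero_of_one he)]
    exact C.pos e (ne_zero_of_one he)
  refine ⟨u, hupos, hu', fun x hx => ?_⟩
  have hb : ∀ y : E n, y ≠ 0 → ∀ i, T.b y i = 0 := by
    intro y hy i
    rw [hTb]
    show ∑ j, (C.toDat.M y)⁻¹ i j * (‖y‖ * pd j C.U y) = 0
    have e1 : ∀ j, pd j C.U y = 0 := fun j => by
      rw [pd_congr' (f := fun _ => u) (fun z hz => hu' z hz) hy, Vale.Agent.P366.pd_const]
    simp only [e1, mul_zero, Finset.sum_const_zero]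
  have hx0 := ne_zero_of_one hx
  have h5 := h2 x hx
  have e1 : ∀ i j, pd i (fun y => T.b y j) x = 0 := fun i j => by
    rw [pd_congr' (f := fun _ => 0) (fun z hz => hb z hz j) hx0, Vale.Agent.P366.pd_const]
  have e2 : T.b x = 0 := funext fun i => hb x hx0 i
  have hq : qT T x = sg C.H (C.U x) x := by
    unfold qT
    simp only [e1, e2]
    have e3 : H353.N.tr (T.A x) = sg C.H (C.U x) x := by
      rw [hTA]
      exact H353.N.X3.tr_A C.toDat hx
    rw [e3]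
    simp [qf]
  rw [hq] at h5
  have h6 := KSN.sg_pos C hx (le_refl (C.U x))
  unfold wS at h5
  have h7 : (V (pt (- C.U x) (Y C.H x (C.U x))) *
      l 0 (pt (- C.U x) (Y C.H x (C.U x))) ^ 2 - 1) * sg C.H (C.U x) x = 0 := by linarith
  rcases mul_eq_zero.1 h7 with h | h
  · linarith
  · exact absurd h h6.ne'

/-- [E1'] (707 + 745): equality, `P = 0`. -/
theorem eq_zero [Fact (3 ≤ n)] (hS : IsSliceL C l V f D) (hD : HasDEC C l V f f D) (hAF : D.IsAF)
    (hT : D.Trapped) {m : ℝ} {P : Fin n → ℝ} (hm : D.IsEnergy m) (hP : D.IsMomentum P)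
    (heq : (D.Amin.toReal / Stmt.omega n) ^ (((n : ℝ) - 2) / ((n : ℝ) - 1)) / 2 =
      √(m ^ 2 - ∑ i, P i ^ 2)) (hP0 : P = 0) :
    ∃ u : ℝ, 0 < u ∧ (∀ x, x ≠ 0 → C.U x = u) ∧ ∀ x : E n, ‖x‖ = 1 →
      V (pt (- C.U x) (Y C.H x (C.U x))) * l 0 (pt (- C.U x) (Y C.H x (C.U x))) ^ 2 = 1 :=
  eq_zero' hS hD hAF hT hm hP heq hP0

end Vale.Agent.P366.KSL
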