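import Vale.Agent.P366.H707.L.RigZ

/-! Rigidity of the Kerr-Schild metric over a round null cone along a hypersurface. -/

open MeasureTheory Metric Filter Topology Set
open scoped ContDiff ENNReal

noncomputable section
namespace Vale.Agent.P366.KSL.Rig

open Vale.Agent.P366 (pd E)
open Vale.Agent.P366.H353.N (kd)
open Vale.Agent.P366.KSN.X5 (DP)
open Vale.Agent.P366.Kerr (sgn ksL ein pt sp)
open Vale.Agent.P366.KSN (spL sp_hasFDerivAt)

variable {n : ℕ} {c y : E n} {f : E n → ℝ} {V : E (n + 1) → ℝ}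
  {l : Fin (n + 1) → E (n + 1) → ℝ} {p : E (n + 1)}

lemma cd_graph (hf : ContDiffAt ℝ ∞ f y) : ContDiffAt ℝ ∞ (fun z => pt (f z) z) y := by
  have h3 : (fun z => pt (f z) z) = fun z => pt 0 z + f z •
      (EuclideanSpace.single (0 : Fin (n + 1)) (1 : ℝ) : E (n + 1)) := by
    funext z; exact KSN.Gr.pt_lin (f z) z
  rw [h3]
  exact (KSN.X5.pt_contDiff (r := ∞) 0).contDiffAt.add (hf.smul contDiffAt_const)

lemma cd_gv (hf : ContDiffAt ℝ ∞ f y) (hV : ContDiffAt ℝ ∞ V (pt (f y) y)) :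
    ContDiffAt ℝ ∞ (gv V f) y :=
  ContDiffAt.comp (g := V) (f := fun z => pt (f z) z) y hV (cd_graph hf)

lemma cd_gd (hf : ContDiffAt ℝ ∞ f y) (hV : ContDiffAt ℝ ∞ V (pt (f y) y)) (a : Fin (n + 1)) :
    ContDiffAt ℝ ∞ (gd V f a) y :=
  ContDiffAt.comp (g := pd a V) (f := fun z => pt (f z) z) y (KSN.X5.cd_pd hV a) (cd_graph hf)

lemma pd_gv (hf : ContDiffAt ℝ ∞ f y) (hV : ContDiffAt ℝ ∞ V (pt (f y) y)) (i : Fin n) :
    pd i (gv V f) y = gd V f i.succ y + pd i f y * gd V f 0 y :=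
  (KSN.Gr.dp_gr (dd hV) (dd hf) i).2

/-- Rigidity of the Kerr-Schild metric over a round null cone along a hypersurface. -/
theorem rigL {O : Set (E n)} (hO : IsOpen O) (hc : ∀ y ∈ O, y ≠ c)
    (hf : ∀ y ∈ O, ContDiffAt ℝ ∞ f y) (hV : ∀ y ∈ O, ContDiffAt ℝ ∞ V (pt (f y) y))
    (hl : ∀ y ∈ O, ∀ a, l a =ᶠ[𝓝 (pt (f y) y)] lc c a) (hτ : ∀ y ∈ O, tau c f y ≠ 0)
    (hn : (n : ℝ) - 1 ≠ 0) (hd : ∀ b, ∀ y ∈ O, ∑ i, pd i (Zf l V f b i) y = 0) :
    ∀ y ∈ O, gd V f 0 y = 0 ∧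
      ∀ i : Fin n, gd V f i.succ y = -((n - 2) * (gv V f y / ‖y - c‖) * nn c i y) := by
  refine rig (v := gv V f) (v0 := gd V f 0) (vs := fun k => gd V f k.succ) hO hc hf
    (fun y hy => cd_gv (hf y hy) (hV y hy)) (fun y hy => cd_gd (hf y hy) (hV y hy) 0)
    (fun y hy i => cd_gd (hf y hy) (hV y hy) i.succ) hτ hn
    (fun y hy i => pd_gv (hf y hy) (hV y hy) i) (fun y hy => ?_) fun m y hy => ?_
  · have h := hd 0 y hy
    have e : ∀ i, pd i (Zf l V f 0 i) y =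
        1 / 2 * pd i (Z0 c f (gv V f) (fun k : Fin n => gd V f k.succ) i) y := by
      intro i
      have hev : Zf l V f 0 i =ᶠ[𝓝 y] fun y =>
          1 / 2 * Z0 c f (gv V f) (fun k : Fin n => gd V f k.succ) i y := by
        filter_upwards [hO.mem_nhds hy] with z hz
        exact Zf_zero (hc z hz) (dd (hV z hz)) (hl z hz) i
      rw [Vale.Agent.P366.pd_congr hev i]
      exact ((DP.of (k := i) (dd (cd_Z0 (hc y hy) (hf y hy) (cd_gv (hf y hy) (hV y hy))
        (fun k => cd_gd (hf y hy) (hV y hy) k.succ) i))).cmul (1 / 2)).2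
    simp only [e, ← Finset.mul_sum] at h
    exact (mul_eq_zero.mp h).resolve_left (by norm_num)
  · have h := hd m.succ y hy
    have e : ∀ i, pd i (Zf l V f m.succ i) y =
        1 / 2 * pd i (Zs c f (gv V f) (gd V f 0) (fun k : Fin n => gd V f k.succ) m i) y := by
      intro i
      have hev : Zf l V f m.succ i =ᶠ[𝓝 y] fun y =>
          1 / 2 * Zs c f (gv V f) (gd V f 0) (fun k : Fin n => gd V f k.succ) m i y := by
        filter_upwards [hO.mem_nhds hy] with z hz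
        exact Zf_succ (hc z hz) (dd (hV z hz)) (hl z hz) m i
      rw [Vale.Agent.P366.pd_congr hev i]
      exact ((DP.of (k := i) (dd (cd_Zs (hc y hy) (hf y hy) (cd_gv (hf y hy) (hV y hy))
        (cd_gd (hf y hy) (hV y hy) 0)
        (fun k => cd_gd (hf y hy) (hV y hy) k.succ) m i))).cmul (1 / 2)).2
    simp only [e, ← Finset.mul_sum] at h
    exact (mul_eq_zero.mp h).resolve_left (by norm_num)

end Vale.Agent.P366.KSL.Rig
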