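import Vale.Agent.P366.H707.L.Rig
import Vale.Agent.P366.H208.L.Int
import Vale.Agent.P366.H222.N.X0d

/-! The flux fields of a Kerr-Schild metric over a round null cone: closed forms. -/

open MeasureTheory Metric Filter Topology Set
open scoped ContDiff ENNReal

noncomputable section
namespace Vale.Agent.P366.KSL.Rig

open Vale.Agent.P366 (pd E)
open Vale.Agent.P366.H353.N (kd)
open Vale.Agent.P366.KSN.X5 (DP)
open Vale.Agent.P366.Kerr (sgn ksL ein pt sp)
open Vale.Agent.P366.KSN (spL sp_hasFDerivAt)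

variable {n : ℕ} {c y : E n} {f : E n → ℝ} {V : E (n + 1) → ℝ}
  {l : Fin (n + 1) → E (n + 1) → ℝ} {p : E (n + 1)}

/-- the covector field of the round null cones with centre `c` -/
def lc (c : E n) (a : Fin (n + 1)) (p : E (n + 1)) : ℝ :=
  Fin.cons (α := fun _ => ℝ) 1 (fun i => nn c i (sp p)) a

/-- its derivatives -/
def dlc (c : E n) (p : E (n + 1)) (a b : Fin (n + 1)) : ℝ :=
  Fin.cons (α := fun _ => ℝ) 0 (fun i => Fin.cons (α := fun _ => ℝ) 0
    (fun k => P c i k (sp p) / ‖sp p - c‖) b) a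

lemma spL_single (k : Fin n) :
    spL (EuclideanSpace.single k.succ (1:ℝ)) = (EuclideanSpace.single k (1:ℝ) : E n) := by
  ext j
  change (EuclideanSpace.single k.succ (1:ℝ) : E (n + 1)) j.succ = _
  simp

lemma spL_single0 : spL (EuclideanSpace.single (0 : Fin (n + 1)) (1:ℝ)) = (0 : E n) := by
  ext j
  change (EuclideanSpace.single (0 : Fin (n + 1)) (1:ℝ) : E (n + 1)) j.succ = _
  simp

lemma dp_lc (hp : sp p ≠ c) (a b : Fin (n + 1)) : DP b (lc c a) (dlc c p a b) p := by
  refine Fin.cases ?_ (fun i => ?_) a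
  · have e : lc c 0 = fun _ => 1 := by funext q; rfl
    rw [e]
    exact DP.const 1
  · have e : lc c i.succ = fun q => nn c i (sp q) := by funext q; rfl
    rw [e]
    have h0 : ∀ k, DP k (nn c i) (P c i k (sp p) / ‖sp p - c‖) (sp p) := fun k => dp_nn hp i k
    have hd : DifferentiableAt ℝ (nn c i) (sp p) := dd (cd_nn hp i)
    have h1 := hd.hasFDerivAt.comp p (sp_hasFDerivAt p)
    refine ⟨h1.differentiableAt, ?_⟩
    unfold Vale.Agent.P366.pd
    rw [show (fun q => nn c i (sp q)) = nn c i ∘ sp from rfl, h1.fderiv,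
      ContinuousLinearMap.comp_apply]
    refine Fin.cases ?_ (fun k => ?_) b
    · rw [spL_single0, map_zero]; rfl
    · rw [spL_single]
      exact (h0 k).2

lemma dp_hh (hp : sp p ≠ c) (hV : DifferentiableAt ℝ V p) (hl : ∀ a, l a =ᶠ[𝓝 p] lc c a)
    (a b d : Fin (n + 1)) : pd d (hh l V a b) p = pd d V p * lc c a p * lc c b p +
      V p * (dlc c p a d * lc c b p + lc c a p * dlc c p b d) := by
  have hev : hh l V a b =ᶠ[𝓝 p] fun q => V q * lc c a q * lc c b q := by
    filter_upwards [hl a, hl b] with q h1 h2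
    unfold hh
    rw [h1, h2]
  rw [Vale.Agent.P366.pd_congr hev d]
  have h := ((DP.of (k := d) hV).mul (dp_lc hp a d)).mul (dp_lc hp b d)
  rw [h.2]
  ring

lemma lc_zero : lc c 0 p = 1 := rfl
lemma lc_succ (i : Fin n) : lc c i.succ p = nn c i (sp p) := rfl
lemma dlc_zero (b : Fin (n + 1)) : dlc c p 0 b = 0 := rfl
lemma dlc_succ0 (i : Fin n) : dlc c p i.succ 0 = 0 := rfl
lemma dlc_succ (i k : Fin n) : dlc c p i.succ k.succ = P c i k (sp p) / ‖sp p - c‖ := rfl

lemma sgn_zero : sgn (0 : Fin (n + 1)) = -1 := by unfold sgn; simp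
lemma sgn_succ (i : Fin n) : sgn i.succ = 1 := by unfold sgn; simp [Fin.succ_ne_zero]

section
variable (hy : y ≠ c) (hV : DifferentiableAt ℝ V (pt (f y) y))
  (hl : ∀ a, l a =ᶠ[𝓝 (pt (f y) y)] lc c a)

/-- the value of `V` on the graph -/
def gv (V : E (n + 1) → ℝ) (f : E n → ℝ) (y : E n) : ℝ := V (pt (f y) y)

/-- the derivatives of `V` on the graph -/
def gd (V : E (n + 1) → ℝ) (f : E n → ℝ) (a : Fin (n + 1)) (y : E n) : ℝ := pd a V (pt (f y) y)


include hy hV hl in
lemma h00 (d : Fin (n + 1)) : pd d (hh l V 0 0) (pt (f y) y) = gd V f d y := by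
  have hp : sp (pt (f y) y) ≠ c := by rw [KSN.X5.sp_pt]; exact hy
  rw [dp_hh hp hV hl, lc_zero, dlc_zero]
  unfold gd
  ring

include hy hV hl in
lemma h0s0 (i : Fin n) : pd 0 (hh l V 0 i.succ) (pt (f y) y) = (gd V f 0) y * nn c i y := by
  have hp : sp (pt (f y) y) ≠ c := by rw [KSN.X5.sp_pt]; exact hy
  rw [dp_hh hp hV hl, lc_zero, lc_succ, dlc_zero, dlc_succ0, KSN.X5.sp_pt]
  unfold gd
  ring

include hy hV hl in
lemma h0ss (i k : Fin n) : pd k.succ (hh l V 0 i.succ) (pt (f y) y) =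
    (fun k : Fin n => gd V f (Fin.succ k)) k y * nn c i y + (gv V f) y * (P c i k y / ‖y - c‖) := by
  have hp : sp (pt (f y) y) ≠ c := by rw [KSN.X5.sp_pt]; exact hy
  rw [dp_hh hp hV hl, lc_zero, lc_succ, dlc_zero, dlc_succ, KSN.X5.sp_pt]
  unfold gd gv
  ring

include hy hV hl in
lemma hss0 (i j : Fin n) : pd 0 (hh l V i.succ j.succ) (pt (f y) y) =
    (gd V f 0) y * nn c i y * nn c j y := by
  have hp : sp (pt (f y) y) ≠ c := by rw [KSN.X5.sp_pt]; exact hy
  rw [dp_hh hp hV hl, lc_succ, lc_succ, dlc_succ0, dlc_succ0, KSN.X5.sp_pt]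
  unfold gd
  ring

include hy hV hl in
lemma hsss (i j k : Fin n) : pd k.succ (hh l V i.succ j.succ) (pt (f y) y) =
    (fun k : Fin n => gd V f (Fin.succ k)) k y * nn c i y * nn c j y + (gv V f) y * (P c i k y / ‖y - c‖ * nn c j y +
      nn c i y * (P c j k y / ‖y - c‖)) := by
  have hp : sp (pt (f y) y) ≠ c := by rw [KSN.X5.sp_pt]; exact hy
  rw [dp_hh hp hV hl, lc_succ, lc_succ, dlc_succ, dlc_succ, KSN.X5.sp_pt]
  unfold gd gv
  ring

lemma hh_symm (a b : Fin (n + 1)) : hh l V a b = hh l V b a := by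
  funext q
  unfold hh
  ring

/-- the divergence of `h` -/
def dh (l : Fin (n + 1) → E (n + 1) → ℝ) (V : E (n + 1) → ℝ) (a : Fin (n + 1))
    (p : E (n + 1)) : ℝ := ∑ d, sgn a * sgn d * pd d (hh l V a d) p

include hy hV hl in
lemma dh_zero : dh l V 0 (pt (f y) y) = - ph c (gv V f) (gd V f 0) (fun k : Fin n => gd V f (Fin.succ k)) y := by
  unfold dh
  rw [Fin.sum_univ_succ]
  simp only [sgn_zero, sgn_succ, h00 hy hV hl, h0ss hy hV hl]
  have e : ∀ k : Fin n, -1 * 1 * (gd V f k.succ y * nn c k y + gv V f y * (P c k k y / ‖y - c‖)) =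
      -(nn c k y * gd V f k.succ y) - gv V f y / ‖y - c‖ * P c k k y := fun k => by ring
  simp only [e, Finset.sum_sub_distrib, Finset.sum_neg_distrib, ← Finset.mul_sum, P_tr hy]
  unfold ph vr
  ring

include hy hV hl in
lemma dh_succ (i : Fin n) : dh l V i.succ (pt (f y) y) = nn c i y * ph c (gv V f) (gd V f 0) (fun k : Fin n => gd V f (Fin.succ k)) y := by
  unfold dh
  rw [Fin.sum_univ_succ]
  simp only [sgn_zero, sgn_succ, hh_symm (l := l) (V := V) i.succ 0, h0s0 hy hV hl,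
    hsss hy hV hl]
  have e : ∀ k : Fin n, 1 * 1 * (gd V f k.succ y * nn c i y * nn c k y + gv V f y *
      (P c i k y / ‖y - c‖ * nn c k y + nn c i y * (P c k k y / ‖y - c‖))) =
      nn c i y * (nn c k y * gd V f k.succ y) + gv V f y / ‖y - c‖ * (P c i k y * nn c k y) +
      nn c i y * (gv V f y / ‖y - c‖) * P c k k y := fun k => by ring
  simp only [e, Finset.sum_add_distrib, ← Finset.mul_sum, P_tr hy, P_nn hy]
  unfold ph vr
  ring

lemma Up_eq (a b d : Fin (n + 1)) : Up l V a d b p =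
    (sgn a * sgn d * (pd a (hh l V d b) p - pd d (hh l V a b) p) - kd a b * dh l V d p +
      kd d b * dh l V a p) / 2 := by
  unfold Up dh
  ring

lemma kd00 : kd (0 : Fin (n + 1)) 0 = 1 := by unfold kd; simp
lemma kd0s (m : Fin n) : kd (0 : Fin (n + 1)) m.succ = 0 := by
  unfold kd; simp [(Fin.succ_ne_zero m).symm]
lemma kds0 (m : Fin n) : kd m.succ (0 : Fin (n + 1)) = 0 := by
  unfold kd; simp [Fin.succ_ne_zero m]
lemma kdss (m k : Fin n) : kd m.succ k.succ = kd m k := by
  unfold kd; simp [Fin.succ_inj]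

include hy hV hl in
/-- the closed form of `Z_0` -/
theorem Zf_zero (i : Fin n) : Zf l V f 0 i y = 1 / 2 * Z0 c f (gv V f) (fun k : Fin n => gd V f (Fin.succ k)) i y := by
  have e1 : Up l V 0 i.succ 0 (pt (f y) y) =
      ((fun k : Fin n => gd V f (Fin.succ k)) i y - nn c i y * (vr c (fun k : Fin n => gd V f (Fin.succ k)) y + (n - 1) * ((gv V f) y / ‖y - c‖))) / 2 := by
    rw [Up_eq, sgn_zero, sgn_succ, hh_symm i.succ 0, h0s0 hy hV hl, h00 hy hV hl, kd00, kds0,
      dh_succ hy hV hl]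
    unfold ph
    ring
  have e2 : ∀ j : Fin n, Up l V j.succ i.succ 0 (pt (f y) y) =
      ((fun k : Fin n => gd V f (Fin.succ k)) j y * nn c i y - (fun k : Fin n => gd V f (Fin.succ k)) i y * nn c j y) / 2 := by
    intro j
    rw [Up_eq, sgn_succ, sgn_succ, hh_symm i.succ 0, hh_symm j.succ 0, h0ss hy hV hl,
      h0ss hy hV hl, kds0, kds0, P_symm i j]
    ring
  unfold Zf
  rw [e1]
  simp only [e2]
  have e3 : ∀ j, pd j f y * ((gd V f j.succ y * nn c i y - gd V f i.succ y * nn c j y) / 2) =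
      nn c i y / 2 * (pd j f y * gd V f j.succ y) -
      gd V f i.succ y / 2 * (nn c j y * pd j f y) := fun j => by ring
  simp only [e3, Finset.sum_sub_distrib, ← Finset.mul_sum]
  unfold Z0 tau fv
  ring

include hy hV hl in
/-- the closed form of `Z_m` -/
theorem Zf_succ (m i : Fin n) : Zf l V f m.succ i y = 1 / 2 * Zs c f (gv V f) (gd V f 0) (fun k : Fin n => gd V f (Fin.succ k)) m i y := by
  have e1 : Up l V 0 i.succ m.succ (pt (f y) y) =
      (-((gd V f 0) y * nn c i y * nn c m y) + (fun k : Fin n => gd V f (Fin.succ k)) i y * nn c m y + (gv V f) y / ‖y - c‖ * P c m i y -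
        kd m i * ph c (gv V f) (gd V f 0) (fun k : Fin n => gd V f (Fin.succ k)) y) / 2 := by
    rw [Up_eq, sgn_zero, sgn_succ, hss0 hy hV hl, h0ss hy hV hl, kd0s, kdss, dh_zero hy hV hl,
      kd_symm i m]
    ring
  have e2 : ∀ j : Fin n, Up l V j.succ i.succ m.succ (pt (f y) y) =
      ((fun k : Fin n => gd V f (Fin.succ k)) j y * nn c i y * nn c m y - (fun k : Fin n => gd V f (Fin.succ k)) i y * nn c j y * nn c m y +
        (gv V f) y / ‖y - c‖ * (nn c i y * P c m j y - nn c j y * P c m i y) -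
        kd m j * (nn c i y * ph c (gv V f) (gd V f 0) (fun k : Fin n => gd V f (Fin.succ k)) y) + kd m i * (nn c j y * ph c (gv V f) (gd V f 0) (fun k : Fin n => gd V f (Fin.succ k)) y)) / 2 := by
    intro j
    rw [Up_eq, sgn_succ, sgn_succ, hsss hy hV hl, hsss hy hV hl, kdss, kdss, dh_succ hy hV hl,
      dh_succ hy hV hl, kd_symm i m, kd_symm j m, P_symm i j]
    ring
  unfold Zf
  rw [e1]
  simp only [e2]
  have e3 : ∀ j, pd j f y * ((gd V f j.succ y * nn c i y * nn c m y -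
        gd V f i.succ y * nn c j y * nn c m y +
        gv V f y / ‖y - c‖ * (nn c i y * P c m j y - nn c j y * P c m i y) -
        kd m j * (nn c i y * ph c (gv V f) (gd V f 0) (fun k : Fin n => gd V f (Fin.succ k)) y) + kd m i * (nn c j y * ph c (gv V f) (gd V f 0) (fun k : Fin n => gd V f (Fin.succ k)) y)) / 2) =
      nn c i y * nn c m y / 2 * (pd j f y * gd V f j.succ y) -
      gd V f i.succ y * nn c m y / 2 * (nn c j y * pd j f y) +
      gv V f y / ‖y - c‖ * nn c i y / 2 * (P c m j y * pd j f y) -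
      gv V f y / ‖y - c‖ * P c m i y / 2 * (nn c j y * pd j f y) -
      nn c i y * ph c (gv V f) (gd V f 0) (fun k : Fin n => gd V f (Fin.succ k)) y / 2 * (kd m j * pd j f y) +
      kd m i * ph c (gv V f) (gd V f 0) (fun k : Fin n => gd V f (Fin.succ k)) y / 2 * (nn c j y * pd j f y) := fun j => by ring
  simp only [e3, Finset.sum_sub_distrib, Finset.sum_add_distrib, ← Finset.mul_sum, kd_sum]
  unfold Zs tau fv
  ring

end

end Vale.Agent.P366.KSL.Rig
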